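import Vale.Agent.P207.N4.Dim
import Vale.Agent.P207.N4.Spec

/-!
# P207, line N4: common vocabulary (over the interface `Leaf`)

* `Orb L` : a closed orbit (an element `β` of the group with a frame on its axis);
* `DirOn`, `SmDir` : `E^s(df, ·)` is `C^k`;
* `Rough`, `SmoothAlt`, `Dichotomy` : the two alternatives.
-/

open Set Filter Topology Metric MeasureTheory
open scoped ContDiff

noncomputable section

namespace Vale.Agent.P207.N4

open Vale.Agent.P207.N3

variable [Dim]

variable {Γ X B : Type} [Group Γ] [MetricSpace X] [ProperSpace X] [MulAction Γ X]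
  [IsIsometricSMul Γ X] [TopologicalSpace B] [CompactSpace B] [T2Space B] [MulAction Γ B]
  [ContinuousConstSMul Γ B]

/-! ### Closed orbits -/

/-- A closed orbit: `β • x = φ_l (rot a x)`; `β^- = em x`, `β^+ = ep x`. -/
structure Orb (L : Leaf Γ X B) where
  β : Γ
  x : X
  l : ℝ
  a : O2
  ax : L.IsAxis β x l a

namespace Orb

variable {L : Leaf Γ X B}

/-- the repelling end `β^-` -/
def neg (o : Orb L) : B := L.em o.x

/-- the attracting end `β^+` -/
def pos (o : Orb L) : B := L.ep o.x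

/-- the contraction `(e x)⁻¹ ∘ β ∘ e x` of the unit disc, `0 ↦ 0` -/
def ret (o : Orb L) : E2 → E2 := L.τ (o.β • o.x) o.x

end Orb

/-! ### `E^s(df, ·)` is smooth -/

/-- `f` is `C^k` and `E^s(df, ·)` is `C^k` on the open piece `O` of the disc `e y` -/
def DirOn {L : Leaf Γ X B} (T : Tens L) (k : ℕ∞) (y : X) (O : Set E2) (f : E2 → ℝ) : Prop :=
  ContDiffOn ℝ k f O ∧ ContDiffOn ℝ k (fun u => T.N y u (gradient f u)) O

/-- `E^s(df, ·)` is smooth along the whole leaf `U_ξ` -/
def SmDir {L : Leaf Γ X B} (T : Tens L) (ξ : B) (f : B → ℝ) : Prop :=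
  ∀ y, L.em y = ξ → DirOn T ⊤ y (ball 0 3) (fun u => f (L.e y u))

/-- The rough alternative: `E^s` is not `C^{k₀}` on any open piece of any unstable leaf. -/
def Rough {L : Leaf Γ X B} (T : Tens L) (k₀ : ℕ) : Prop :=
  ∀ y : X, ∀ O : Set E2, IsOpen O → O ⊆ ball 0 3 → O.Nonempty → ¬ ContDiffOn ℝ k₀ (T.N y) O

/-- The smooth alternative: `E^s` is smooth along all unstable leaves, all derivatives are jointly
continuous. -/
def SmoothAlt {L : Leaf Γ X B} (T : Tens L) : Prop :=
  (∀ y : X, ContDiffOn ℝ ∞ (T.N y) (ball 0 3)) ∧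
    ∀ k : ℕ, ContinuousOn (fun p : X × E2 => iteratedFDeriv ℝ k (T.N p.1) p.2) (univ ×ˢ ball 0 3)

/-- the dichotomy -/
def Dichotomy {L : Leaf Γ X B} (T : Tens L) : Prop :=
  SmoothAlt T ∨ ∃ k₀, Rough T k₀

end Vale.Agent.P207.N4
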