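import Vale.Agent.P207.N4.Dim
import Vale.Agent.P207.N4.Top.Orb

/-!
# P207, line N4: the return map of a closed orbit
-/

open Set Filter Topology Metric MeasureTheory
open scoped ContDiff

noncomputable section

namespace Vale.Agent.P207.N4

open Vale.Agent.P207.N3

variable [Dim]

variable {Γ X B : Type} [Group Γ] [MetricSpace X] [ProperSpace X] [MulAction Γ X]
  [IsIsometricSMul Γ X] [TopologicalSpace B] [CompactSpace B] [T2Space B] [MulAction Γ B]
  [ContinuousConstSMul Γ B]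

/-! ### The return map -/

namespace Orb

variable {L : Leaf Γ X B}

/-- near `0` the return map is defined -/
theorem dm_nhds (o : Orb L) : ∀ᶠ u in 𝓝 (0 : E2), u ∈ L.dm (o.β • o.x) o.x := by
  have h0 : (o.β • o.x, L.e o.x 0) ∈ ({p : X × B | p.2 ∈ L.e p.1 '' ball 0 3} : Set (X × B)) := by
    refine ⟨0, by simp, ?_⟩
    rw [L.e_zero, L.e_zero, ep_smul']
    exact o.smul_pos
  have hc : ContinuousAt (fun u : E2 => L.e (o.β • o.x) u) 0 := by
    have h1 := L.e_cont (o.β • o.x, 0) ⟨mem_univ _, by simp⟩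
    have h2 : ContinuousWithinAt (fun u : E2 => L.e (o.β • o.x) u) (closedBall 0 3) 0 :=
      ContinuousWithinAt.comp (t := univ ×ˢ closedBall 0 3) (f := fun u : E2 => (o.β • o.x, u))
        h1 (by fun_prop) (fun u hu => ⟨mem_univ _, hu⟩)
    exact h2.continuousAt (closedBall_mem_nhds _ (by norm_num))
  have hm : (o.x, L.e (o.β • o.x) 0) ∈ ({p : X × B | p.2 ∈ L.e p.1 '' ball 0 3} : Set (X × B)) := by
    refine ⟨0, by simp, ?_⟩
    rw [L.e_zero, L.e_zero, ep_smul']
    exact o.smul_pos.symm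
  have h3 : ∀ᶠ u in 𝓝 (0 : E2), (o.x, L.e (o.β • o.x) u) ∈
      ({p : X × B | p.2 ∈ L.e p.1 '' ball 0 3} : Set (X × B)) := by
    have h4 : ContinuousAt (fun u : E2 => (o.x, L.e (o.β • o.x) u)) 0 :=
      continuousAt_const.prodMk hc
    exact h4 (L.e_open.mem_nhds hm)
  filter_upwards [h3, ball_mem_nhds (0 : E2) (by norm_num : (0:ℝ) < 3)] with u hu hu3
  exact ⟨hu3, hu⟩

theorem e_ret (o : Orb L) {u : E2} (hu : u ∈ L.dm (o.β • o.x) o.x) :
    L.e o.x (o.ret u) = o.β • L.e o.x u := by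
  have h1 : L.e (o.β • o.x) u ∈ L.e o.x '' closedBall 0 3 :=
    image_mono ball_subset_closedBall hu.2
  have h2 := Function.invFunOn_eq h1
  rw [← L.e_smul _ _ _ (ball_subset_closedBall hu.1)]
  exact h2

theorem ret_zero (o : Orb L) : o.ret 0 = 0 := by
  have hu := o.dm_nhds.self_of_nhds
  have h1 := o.e_ret hu
  rw [L.e_zero] at h1
  have h2 : o.ret 0 ∈ closedBall (0 : E2) 3 :=
    Function.invFunOn_mem (image_mono ball_subset_closedBall hu.2)
  apply L.e_inj o.x h2 (by simp)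
  rw [h1, L.e_zero]
  exact o.smul_pos

theorem ret_contDiffAt (o : Orb L) : ContDiffAt ℝ ∞ o.ret 0 := by
  have hem : L.em (o.β • o.x) = L.em o.x := by
    rw [L.em_smul]
    exact o.smul_neg
  exact (L.tau_smooth (o.β • o.x) o.x hem).contDiffAt o.dm_nhds

end Orb

end Vale.Agent.P207.N4
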